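import Mathlib

/-!
# Primes `q` in a class mod 3 with `2 q - u` composite for all small `u`

Support for the P001 hand-in (no decomposition of the primes into two translates of one set).
-/

namespace Vale.Agent.H8.Ostmann

/-- Invariant for the induction on `K`: a modulus `M` (divisible by 3) and a unit class `x`
modulo `M`, lying in the class `s` mod 3, such that for every `q` in that class and every
`u < K` the number `2 q - u` has a divisor `d` with `1 < d ≤ M`. -/
theorem kill_inv (s : ℕ) (hs : s = 1 ∨ s = 2) (K : ℕ) :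
    ∃ M x : ℕ, 3 ∣ M ∧ 0 < M ∧ Nat.Coprime x M ∧ x % 3 = s ∧
      ∀ q : ℕ, q % M = x % M → ∀ u < K, ∃ d, 1 < d ∧ d ≤ M ∧ d ∣ (2 * q - u) := by
  induction K with
  | zero =>
    refine ⟨3, s, dvd_rfl, by norm_num, ?_, ?_, ?_⟩
    · rcases hs with rfl | rfl <;> decide
    · rcases hs with rfl | rfl <;> rfl
    · intro q _ u hu
      omega
  | succ K ih =>
    obtain ⟨M, x, h3, hM, hcop, hx3, hkill⟩ := ih
    have hM3 : 3 ≤ M := Nat.le_of_dvd hM h3
    rcases Nat.even_or_odd K with hK | hK
    · -- even `K`: the divisor 2 works, no new modulus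
      refine ⟨M, x, h3, hM, hcop, hx3, ?_⟩
      intro q hq u hu
      rcases Nat.lt_succ_iff_lt_or_eq.mp hu with h | rfl
      · exact hkill q hq u h
      · refine ⟨2, by norm_num, by omega, ?_⟩
        obtain ⟨k, hk⟩ := hK
        exact ⟨q - k, by omega⟩
    · -- odd `K`: a new prime modulus `l`
      obtain ⟨l, hlge, hlp⟩ := Nat.exists_infinite_primes (M + K + 3)
      have hK1 : 1 ≤ K := by
        obtain ⟨k, hk⟩ := hK
        omega
      have hlM : ¬ l ∣ M := Nat.not_dvd_of_pos_of_lt hM (by omega)
      have hcopMl : Nat.Coprime M l :=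
        Nat.Coprime.symm ((Nat.Prime.coprime_iff_not_dvd hlp).mpr hlM)
      have hlodd : l % 2 = 1 := by
        rcases Nat.Prime.eq_two_or_odd hlp with h | h
        · omega
        · exact h
      set y : ℕ := K * ((l + 1) / 2) with hy
      obtain ⟨x', hx'M, hx'l⟩ := Nat.chineseRemainder hcopMl x y
      have hlK : ¬ l ∣ K := Nat.not_dvd_of_pos_of_lt (by omega) (by omega)
      have hlh : ¬ l ∣ (l + 1) / 2 := Nat.not_dvd_of_pos_of_lt (by omega) (by omega)
      have hly : ¬ l ∣ y := by
        rw [hy]
        intro h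
        rcases (Nat.Prime.dvd_mul hlp).mp h with h | h
        · exact hlK h
        · exact hlh h
      have hcopyl : Nat.Coprime y l :=
        Nat.Coprime.symm ((Nat.Prime.coprime_iff_not_dvd hlp).mpr hly)
      have hcx'M : Nat.Coprime x' M := by
        unfold Nat.Coprime
        rw [Nat.ModEq.gcd_eq hx'M]
        exact hcop
      have hcx'l : Nat.Coprime x' l := by
        unfold Nat.Coprime
        rw [Nat.ModEq.gcd_eq hx'l]
        exact hcopyl
      refine ⟨M * l, x', Dvd.dvd.mul_right h3 l, Nat.mul_pos hM hlp.pos,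
        Nat.Coprime.mul_right hcx'M hcx'l, ?_, ?_⟩
      · have h := Nat.ModEq.of_dvd h3 hx'M
        unfold Nat.ModEq at h
        rw [h, hx3]
      · intro q hq u hu
        have hqm : q ≡ x' [MOD M * l] := hq
        have hqM : q ≡ x [MOD M] :=
          (Nat.ModEq.of_dvd (Dvd.intro l rfl) hqm).trans hx'M
        have hql : q ≡ y [MOD l] :=
          (Nat.ModEq.of_dvd (Dvd.intro_left M rfl) hqm).trans hx'l
        have hMl : M ≤ M * l := Nat.le_mul_of_pos_right M hlp.pos
        rcases Nat.lt_succ_iff_lt_or_eq.mp hu with h | hueq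
        · obtain ⟨d, hd1, hdM, hdvd⟩ := hkill q hqM u h
          exact ⟨d, hd1, le_trans hdM hMl, hdvd⟩
        · rw [hueq]
          refine ⟨l, hlp.one_lt, Nat.le_mul_of_pos_left l hM, ?_⟩
          -- `2 q ≡ 2 y = K (l + 1) ≡ K` modulo `l`
          have h2y : 2 * y = K + K * ((l + 1) / 2 * 2 - 1) := by
            rw [hy]
            have : (l + 1) / 2 * 2 = l + 1 := by omega
            rw [this]
            have h1 : K * (l + 1 - 1) = K * l := by
              congr 1
            rw [h1]
            have h2 : 2 * (K * ((l + 1) / 2)) = K * ((l + 1) / 2 * 2) := by ring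
            rw [h2, this]
            ring
          have hKl : (l + 1) / 2 * 2 - 1 = l := by omega
          rw [hKl] at h2y
          have h2q : 2 * q ≡ 2 * y [MOD l] := Nat.ModEq.mul_left 2 hql
          have hyK : 2 * y ≡ K [MOD l] := by
            rw [h2y]
            have h0 : K + K * l ≡ K + 0 [MOD l] :=
              Nat.ModEq.add_left K ((Nat.modEq_zero_iff_dvd).mpr (Dvd.intro_left K rfl))
            rw [Nat.add_zero] at h0
            exact h0
          have hfin : 2 * q ≡ K [MOD l] := h2q.trans hyK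
          rcases Nat.lt_or_ge (2 * q) K with hlt | hge
          · have : 2 * q - K = 0 := by omega
            rw [this]
            exact dvd_zero l
          · exact (Nat.modEq_iff_dvd' hge).mp hfin.symm

/-- For every `K` and `L` there is a prime `q ≥ L` in the class `s` mod 3 (`s = 1` or `2`)
such that none of the numbers `2 q - u`, `u < K`, is prime. -/
theorem kill (s : ℕ) (hs : s = 1 ∨ s = 2) (K L : ℕ) :
    ∃ q : ℕ, q.Prime ∧ L ≤ q ∧ q % 3 = s ∧ ∀ u < K, ¬ (2 * q - u).Prime := by
  obtain ⟨M, x, h3, hM, hcop, hx3, hkill⟩ := kill_inv s hs K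
  have : NeZero M := ⟨by omega⟩
  have hunit : IsUnit ((x : ℕ) : ZMod M) := (ZMod.isUnit_iff_coprime x M).mpr hcop
  obtain ⟨q, hqgt, hqp, hqx⟩ := Nat.forall_exists_prime_gt_and_eq_mod hunit (L + M + K)
  have hqM : q % M = x % M := (ZMod.natCast_eq_natCast_iff' q x M).mp hqx
  refine ⟨q, hqp, by omega, ?_, ?_⟩
  · have h : q ≡ x [MOD 3] := Nat.ModEq.of_dvd h3 hqM
    unfold Nat.ModEq at h
    rw [h, hx3]
  · intro u hu hp
    obtain ⟨d, hd1, hdM, hdvd⟩ := hkill q hqM u hu
    rcases (Nat.dvd_prime hp).mp hdvd with h | h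
    · omega
    · omega

end Vale.Agent.H8.Ostmann
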