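import Mathlib
import Vale.Agent.H8.Ostmann.Kill

/-!
# The primes are not asymptotically `A + (A + c)`

If `B` is a translate of `A`, then `A + B` and the set of primes differ in infinitely many
elements (a special case of Ostmann's inverse Goldbach conjecture, P001).
-/

namespace Vale.Agent.H8.Ostmann

open Pointwise

/-- A prime that is at least 4 is not divisible by 3. -/
theorem prime_mod_three {p : ℕ} (hp : p.Prime) (h4 : 4 ≤ p) : p % 3 ≠ 0 := by
  intro h
  have hdvd : 3 ∣ p := Nat.dvd_of_mod_eq_zero h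
  rcases (Nat.dvd_prime hp).mp hdvd with h1 | h1
  · omega
  · omega

/-- If none of `2 a + c`, `2 a' + c`, `a + a' + c` is divisible by 3, then `a ≡ a'` mod 3. -/
theorem mod_three_class (a a' c : ℕ) (hu : (a + a + c) % 3 ≠ 0) (hv : (a' + a' + c) % 3 ≠ 0)
    (hw : (a + a' + c) % 3 ≠ 0) : a % 3 = a' % 3 := by
  have h1 : a % 3 < 3 := Nat.mod_lt _ (by norm_num)
  have h2 : a' % 3 < 3 := Nat.mod_lt _ (by norm_num)
  have h3 : c % 3 < 3 := Nat.mod_lt _ (by norm_num)
  have e1 : (a + a + c) % 3 = (a % 3 + a % 3 + c % 3) % 3 := by omega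
  have e2 : (a' + a' + c) % 3 = (a' % 3 + a' % 3 + c % 3) % 3 := by omega
  have e3 : (a + a' + c) % 3 = (a % 3 + a' % 3 + c % 3) % 3 := by omega
  rw [e1] at hu
  rw [e2] at hv
  rw [e3] at hw
  generalize a % 3 = x at *
  generalize a' % 3 = y at *
  generalize c % 3 = z at *
  interval_cases x <;> interval_cases y <;> interval_cases z <;> simp_all

theorem translate_main (A : Set ℕ) (c : ℕ) :
    (symmDiff (A + (fun a => a + c) '' A) {p : ℕ | p.Prime}).Infinite := by
  by_contra hfin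
  rw [Set.not_infinite] at hfin
  set S : Set ℕ := A + (fun a => a + c) '' A with hS
  have hmem : ∀ n, n ∈ S ↔ ∃ a ∈ A, ∃ a' ∈ A, a + (a' + c) = n := by
    intro n
    rw [hS, Set.mem_add]
    constructor
    · rintro ⟨a, ha, b, ⟨a', ha', rfl⟩, rfl⟩
      exact ⟨a, ha, a', ha', rfl⟩
    · rintro ⟨a, ha, a', ha', rfl⟩
      exact ⟨a, ha, a' + c, ⟨a', ha', rfl⟩, rfl⟩
  obtain ⟨b, hb⟩ := hfin.bddAbove
  set N0 : ℕ := b + 1 with hN0
  have hiff : ∀ n, N0 ≤ n → (n ∈ S ↔ n.Prime) := by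
    intro n hn
    constructor
    · intro h
      by_contra hp
      have hmemD : n ∈ symmDiff S {p : ℕ | p.Prime} := Or.inl ⟨h, hp⟩
      have := hb hmemD
      omega
    · intro hp
      by_contra h
      have hmemD : n ∈ symmDiff S {p : ℕ | p.Prime} := Or.inr ⟨hp, h⟩
      have := hb hmemD
      omega
  set N1 : ℕ := max N0 2 with hN1
  have hN1a : N0 ≤ N1 := le_max_left _ _
  have hN1b : 2 ≤ N1 := le_max_right _ _
  -- sums of two typical elements are primes that are at least 4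
  have hsum : ∀ a ∈ A, ∀ a' ∈ A, N1 ≤ a → N1 ≤ a' →
      (a + a' + c).Prime ∧ (a + a' + c) % 3 ≠ 0 := by
    intro a ha a' ha' h1 h2
    have hin : a + (a' + c) ∈ S := (hmem _).mpr ⟨a, ha, a', ha', rfl⟩
    have hp : (a + (a' + c)).Prime := (hiff _ (by omega)).mp hin
    have e : a + (a' + c) = a + a' + c := by ring
    rw [e] at hp
    exact ⟨hp, prime_mod_three hp (by omega)⟩
  -- all typical elements lie in one class mod 3
  have hclass : ∀ a ∈ A, ∀ a' ∈ A, N1 ≤ a → N1 ≤ a' → a % 3 = a' % 3 := by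
    intro a ha a' ha' h1 h2
    have hu := (hsum a ha a ha h1 h1).2
    have hv := (hsum a' ha' a' ha' h2 h2).2
    have hw := (hsum a ha a' ha' h1 h2).2
    exact mod_three_class a a' c hu hv hw
  -- a typical element exists
  obtain ⟨p0, hp0ge, hp0⟩ := Nat.exists_infinite_primes (N0 + 2 * N1 + c + 1)
  have hp0S : p0 ∈ S := (hiff p0 (by omega)).mpr hp0
  obtain ⟨a1, ha1, a2, ha2, hsum0⟩ := (hmem p0).mp hp0S
  obtain ⟨a0, ha0, ha0N⟩ : ∃ a0 ∈ A, N1 ≤ a0 := by
    rcases Nat.lt_or_ge a1 N1 with h | h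
    · exact ⟨a2, ha2, by omega⟩
    · exact ⟨a1, ha1, h⟩
  set s : ℕ := (a0 + a0 + c) % 3 with hs
  have hs0 : s ≠ 0 := (hsum a0 ha0 a0 ha0 ha0N ha0N).2
  have hs3 : s < 3 := Nat.mod_lt _ (by norm_num)
  have hs' : 3 - s = 1 ∨ 3 - s = 2 := by omega
  obtain ⟨q, hqp, hqL, hq3, hqkill⟩ :=
    kill (3 - s) hs' (2 * N1 + c) (N0 + 2 * N1 + c + 1)
  have hqS : q ∈ S := (hiff q (by omega)).mpr hqp
  obtain ⟨a, ha, a', ha', hq⟩ := (hmem q).mp hqS
  rcases Nat.lt_or_ge a N1 with h1 | h1
  · -- `a` is small, so `a'` is typical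
    have h2 : N1 ≤ a' := by omega
    have hp := (hsum a' ha' a' ha' h2 h2).1
    have e : a' + a' + c = 2 * q - (2 * a + c) := by omega
    rw [e] at hp
    exact hqkill (2 * a + c) (by omega) hp
  · rcases Nat.lt_or_ge a' N1 with h2 | h2
    · -- `a'` is small, so `a` is typical
      have hp := (hsum a ha a ha h1 h1).1
      have e : a + a + c = 2 * q - (2 * a' + c) := by omega
      rw [e] at hp
      exact hqkill (2 * a' + c) (by omega) hp
    · -- both typical: the sum lies in the class `s`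
      have hc1 := hclass a ha a0 ha0 h1 ha0N
      have hc2 := hclass a' ha' a0 ha0 h2 ha0N
      have hqs : q % 3 = s := by
        rw [hs, ← hq]
        omega
      omega

end Vale.Agent.H8.Ostmann
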